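import Vale.Agent.P095.Rel.Action
import Vale.Agent.P095.Statement

/-!
P095: the relative picture for the unitization of a possibly nonunital algebra and the algebra
inside it, in the vocabulary of the statement.
-/

namespace Vale.Agent.P095.Rel

open Filter Vale.Agent.P101
open scoped Topology BoundedContinuousFunction

variable {A : Type} [NonUnitalCStarAlgebra A]

/-- The algebra inside its unitization. -/
def inrSet (A : Type) [NonUnitalCStarAlgebra A] : Set (Unitization ℂ A) :=
  Set.range fun a : A => (a : Unitization ℂ A)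

instance separableSpace_unitization [TopologicalSpace.SeparableSpace A] :
    TopologicalSpace.SeparableSpace (Unitization ℂ A) :=
  (Unitization.uniformEquivProd (𝕜 := ℂ) (A := A)).symm.surjective.denseRange.separableSpace
    (Unitization.uniformEquivProd (𝕜 := ℂ) (A := A)).symm.continuous

theorem starMap_symm_apply (e : A ≃⋆ₐ[ℂ] A) (x : Unitization ℂ A) :
    Unitization.starMap (e.symm : A →⋆ₙₐ[ℂ] A) (Unitization.starMap (e : A →⋆ₙₐ[ℂ] A) x) = x := by
  rw [← StarAlgHom.comp_apply, ← Unitization.starMap_comp]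
  have : (e.symm : A →⋆ₙₐ[ℂ] A).comp (e : A →⋆ₙₐ[ℂ] A) = NonUnitalStarAlgHom.id ℂ A := by
    ext a
    exact e.symm_apply_apply a
  rw [this, Unitization.starMap_id]
  rfl

/-- An automorphism extended to the unitization, as an automorphism. -/
noncomputable def unitEquiv (e : A ≃⋆ₐ[ℂ] A) : Unitization ℂ A ≃⋆ₐ[ℂ] Unitization ℂ A :=
  StarAlgEquiv.ofBijective (unitMap e)
    ⟨Function.LeftInverse.injective (starMap_symm_apply e),
      Function.RightInverse.surjective (g := unitMap e.symm) fun x => by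
        have := starMap_symm_apply e.symm x
        rwa [StarAlgEquiv.symm_symm] at this⟩

theorem unitEquiv_apply (e : A ≃⋆ₐ[ℂ] A) (x : Unitization ℂ A) : unitEquiv e x = unitMap e x :=
  rfl

variable {G : Type} [Group G] (α : G →* (A ≃⋆ₐ[ℂ] A))

/-- The action extended to the unitization. -/
noncomputable def unitAct : G →* (Unitization ℂ A ≃⋆ₐ[ℂ] Unitization ℂ A) where
  toFun g := unitEquiv (α g)
  map_one' := by
    refine StarAlgEquiv.ext fun x => ?_
    rw [unitEquiv_apply, map_one]
    show Unitization.starMap (NonUnitalStarAlgHom.id ℂ A) x = x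
    rw [Unitization.starMap_id]
    rfl
  map_mul' g h := by
    refine StarAlgEquiv.ext fun x => ?_
    show unitMap (α (g * h)) x = unitMap (α g) (unitMap (α h) x)
    rw [map_mul, unitMap, unitMap, unitMap, ← StarAlgHom.comp_apply, ← Unitization.starMap_comp]
    rfl

theorem unitAct_apply (g : G) (x : Unitization ℂ A) : unitAct α g x = unitMap (α g) x := rfl

theorem unitAct_mem (g : G) : ∀ s ∈ inrSet A, unitAct α g s ∈ inrSet A := by
  rintro _ ⟨a, rfl⟩
  refine ⟨α g a, ?_⟩
  rw [unitAct_apply, unitMap, Unitization.starMap_inr]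
  rfl

variable (w : Ultrafilter ℕ)

noncomputable local instance : CStarAlgebra (centralSeq (w : Filter ℕ) (Unitization ℂ A)) :=
  StarSubalgebra.cstarAlgebra _ (h_closed := isClosed_centralSeq w)

theorem annSeq_iff_annNull {f : ℕ →ᵇ Unitization ℂ A}
    (hf : f ∈ centralSeq (w : Filter ℕ) (Unitization ℂ A)) :
    AnnSeq (inrSet A) w f ↔ AnnNull (w : Filter ℕ) f := by
  refine ⟨fun h a => (h _ ⟨a, rfl⟩).1, fun h => ?_⟩
  rintro _ ⟨a, rfl⟩
  refine ⟨h a, ?_⟩
  have h1 := ((h (star a)).sub (hf ((star a : A) : Unitization ℂ A))).star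
  simp only [sub_zero, star_zero] at h1
  refine h1.congr fun n => ?_
  simp [star_mul, Unitization.inr_star]

/-- The central sequence algebra of a possibly nonunital algebra, as a quotient map. -/
theorem quotHom_eq_zero_iff (f : centralSeq (w : Filter ℕ) (Unitization ℂ A)) :
    quotHom (annIdeal (inrSet A) w) f = 0 ↔
      AnnNull (w : Filter ℕ) (f : ℕ →ᵇ Unitization ℂ A) := by
  rw [quotHom_apply, Ideal.Quotient.eq_zero_iff_mem, mem_annIdeal, annSeq_iff_annNull w f.2]

theorem isEmpty_character_relQuot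
    (h : ∀ χ : centralSeq (w : Filter ℕ) (Unitization ℂ A) →⋆ₐ[ℂ] ℂ,
      (∀ f : centralSeq (w : Filter ℕ) (Unitization ℂ A),
        AnnNull (w : Filter ℕ) (f : ℕ →ᵇ Unitization ℂ A) → χ f = 0) → False) :
    IsEmpty (RelQuot (inrSet A) w →⋆ₐ[ℂ] ℂ) :=
  ⟨fun χ => h (χ.comp (quotHom (annIdeal (inrSet A) w))) fun f hf => by
    rw [StarAlgHom.comp_apply, (quotHom_eq_zero_iff w f).2 hf, map_zero]⟩

/-- A fixed class is fixed on representatives modulo annihilating sequences. -/
theorem tendsto_of_fixed {g : G} {f : centralSeq (w : Filter ℕ) (Unitization ℂ A)}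
    (hf : relAct (unitAct α) (unitAct_mem α) w g (Ideal.Quotient.mk (annIdeal (inrSet A) w) f)
      = Ideal.Quotient.mk (annIdeal (inrSet A) w) f) (a : A) :
    Tendsto (fun n => (unitMap (α g) (f.1 n) - f.1 n) * (a : Unitization ℂ A))
      (w : Filter ℕ) (𝓝 0) := by
  rw [relAct_mk, Ideal.Quotient.mk_eq_mk_iff_sub_mem, mem_annIdeal] at hf
  exact (hf _ ⟨a, rfl⟩).1

end Vale.Agent.P095.Rel
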