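import Vale.Agent.P095.Rel.Quotient

/-!
P095: a group acting on a unital C*-algebra and preserving a subset acts on the relative central
sequence algebra; for a finite group the fixed algebra has commuting copies, and relations fixed by
every finite subset of a countable group pass to the whole group.
-/

namespace Vale.Agent.P095.Rel

open Filter Vale.Agent.P101
open scoped Topology BoundedContinuousFunction

universe u

variable {B : Type u} [CStarAlgebra B] {G : Type*} [Group G] (α : G →* (B ≃⋆ₐ[ℂ] B))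
  {S : Set B} (hS : ∀ g, ∀ s ∈ S, α g s ∈ S) (w : Ultrafilter ℕ)

noncomputable local instance : CStarAlgebra (centralSeq (w : Filter ℕ) B) :=
  StarSubalgebra.cstarAlgebra _ (h_closed := isClosed_centralSeq w)

include hS in
theorem centralAct_ann (g : G) {f : centralSeq (w : Filter ℕ) B} (hf : f ∈ annIdeal S w) :
    centralAct α w g f ∈ annIdeal S w := by
  intro s hs
  obtain ⟨h1, h2⟩ := hf _ (hS g⁻¹ s hs)
  rw [tendsto_zero_iff_norm_tendsto_zero] at h1 h2
  have e : α g (α g⁻¹ s) = s := by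
    show (α g * α g⁻¹) s = s
    rw [← map_mul, mul_inv_cancel, map_one]
    rfl
  constructor <;> rw [tendsto_zero_iff_norm_tendsto_zero]
  · refine h1.congr fun n => ?_
    rw [centralAct_apply, ← StarAlgEquiv.norm_map (α g), map_mul, e]
  · refine h2.congr fun n => ?_
    rw [centralAct_apply, ← StarAlgEquiv.norm_map (α g), map_mul, e, map_star]

/-- The action on the relative central sequence algebra. -/
noncomputable def relAct (g : G) : RelQuot S w →⋆ₐ[ℂ] RelQuot S w :=
  { Ideal.Quotient.liftₐ (annIdeal S w)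
      ((quotHom (annIdeal S w)).toAlgHom.comp (centralAct α w g).toAlgHom)
      (fun _ hf => Ideal.Quotient.eq_zero_iff_mem.2 (centralAct_ann α hS w g hf)) with
    map_star' := fun x => by
      obtain ⟨f, rfl⟩ := Ideal.Quotient.mk_surjective x
      exact congrArg (quotHom (annIdeal S w)) (map_star (centralAct α w g) f)
        |>.trans (map_star (quotHom (annIdeal S w)) _) }

theorem relAct_mk (g : G) (f : centralSeq (w : Filter ℕ) B) :
    relAct α hS w g (Ideal.Quotient.mk (annIdeal S w) f)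
      = Ideal.Quotient.mk (annIdeal S w) (centralAct α w g f) := rfl

theorem relAct_one : relAct α hS w 1 = StarAlgHom.id ℂ (RelQuot S w) := by
  refine StarAlgHom.ext fun x => ?_
  obtain ⟨f, rfl⟩ := Ideal.Quotient.mk_surjective x
  show relAct α hS w 1 _ = Ideal.Quotient.mk (annIdeal S w) f
  rw [relAct_mk]
  congr 1
  apply Subtype.ext
  ext n
  simp [centralAct_apply]

theorem relAct_mul (g h : G) :
    relAct α hS w (g * h) = (relAct α hS w g).comp (relAct α hS w h) := by
  refine StarAlgHom.ext fun x => ?_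
  obtain ⟨f, rfl⟩ := Ideal.Quotient.mk_surjective x
  rw [StarAlgHom.comp_apply, relAct_mk, relAct_mk, relAct_mk]
  congr 1
  apply Subtype.ext
  ext n
  simp [centralAct_apply]

/-- The fixed algebra of the relative central sequence algebra. -/
def fixedRel : StarSubalgebra ℂ (RelQuot S w) where
  carrier := {x | ∀ g, relAct α hS w g x = x}
  mul_mem' hx hy g := by rw [map_mul, hx g, hy g]
  add_mem' hx hy g := by rw [map_add, hx g, hy g]
  algebraMap_mem' c g := AlgHomClass.commutes _ c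
  star_mem' hx g := by rw [map_star, hx g]

theorem mem_fixedRel {x : RelQuot S w} :
    x ∈ fixedRel α hS w ↔ ∀ g, relAct α hS w g x = x := Iff.rfl

set_option synthInstance.maxHeartbeats 100000 in
theorem isClosed_fixedRel : IsClosed (fixedRel α hS w : Set (RelQuot S w)) := by
  have h : (fixedRel α hS w : Set (RelQuot S w)) = ⋂ g, {x | relAct α hS w g x = x} := by
    ext x
    simp [mem_fixedRel]
  rw [h]
  exact isClosed_iInter fun g => isClosed_eq
    (AddMonoidHomClass.continuous_of_bound (relAct α hS w g) 1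
      fun x => (NonUnitalStarAlgHom.norm_apply_le _ x).trans_eq (one_mul _).symm)
    continuous_id

noncomputable instance : CStarAlgebra (fixedRel α hS w) :=
  StarSubalgebra.cstarAlgebra _ (h_closed := isClosed_fixedRel α hS w)

/-- Every fixed class has an exactly invariant lift. -/
theorem exists_fixed_lift [Fintype G] {x : RelQuot S w} (hx : x ∈ fixedRel α hS w) :
    ∃ f : centralSeq (w : Filter ℕ) B,
      Ideal.Quotient.mk (annIdeal S w) f = x ∧ ∀ g, centralAct α w g f = f := by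
  obtain ⟨f, rfl⟩ := Ideal.Quotient.mk_surjective x
  have hG : (Fintype.card G : ℂ) ≠ 0 := Nat.cast_ne_zero.2 Fintype.card_ne_zero
  refine ⟨(Fintype.card G : ℂ)⁻¹ • ∑ g, centralAct α w g f, ?_, fun h => ?_⟩
  · show (quotHom (annIdeal S w)) _ = _
    rw [map_smul, map_sum]
    have : ∀ g, quotHom (annIdeal S w) (centralAct α w g f)
        = Ideal.Quotient.mk (annIdeal S w) f := fun g => hx g
    rw [Finset.sum_congr rfl fun g _ => this g, Finset.sum_const, Finset.card_univ,
      ← Nat.cast_smul_eq_nsmul ℂ, inv_smul_smul₀ hG]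
  · rw [map_smul, map_sum]
    congr 1
    refine Fintype.sum_equiv (Equiv.mulLeft h) _ _ fun g => ?_
    apply Subtype.ext
    ext n
    simp [centralAct_apply]

theorem hasCopies_fixedRel [Fintype G] [TopologicalSpace.SeparableSpace B]
    (hw : (w : Filter ℕ) ≤ cofinite) : HasCopies (fixedRel α hS w) := by
  intro n a R hR
  choose x hxq hxfix using fun i => exists_fixed_lift α hS w (a i).2
  refine ⟨∑ i, ‖x i‖, fun T => ?_⟩
  classical
  let incl := (fixedRel α hS w).subtype.toAlgHom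
  have hR' : ∀ p ∈ R, FreeAlgebra.lift ℂ
      (Sum.elim (fun i => Ideal.Quotient.mk (annIdeal S w) (x i))
        fun i => star (Ideal.Quotient.mk (annIdeal S w) (x i))) p = 0 := fun p hp => by
    have h0 : incl (FreeAlgebra.lift ℂ (Sum.elim a fun i => star (a i)) p) = 0 := by
      rw [hR p hp, map_zero]
    rw [algHom_lift] at h0
    refine Eq.trans ?_ h0
    congr 2
    funext i
    rcases i with i | i <;> simp [incl, hxq]
  obtain ⟨m, hm, h1, h2, h3⟩ :=
    exists_copies S w hw x R hR' (T.image (Subtype.val : fixedRel α hS w → RelQuot S w))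
  have hfix : ∀ i, Ideal.Quotient.mk (annIdeal S w) ⟨_, hm i⟩ ∈ fixedRel α hS w := fun i g => by
    rw [relAct_mk]
    congr 1
    apply Subtype.ext
    show seqAct α g (reindex m (x i : ℕ →ᵇ B)) = reindex m (x i : ℕ →ᵇ B)
    rw [seqAct_reindex]
    exact congrArg (reindex m) (congrArg Subtype.val (hxfix i g))
  refine ⟨fun i => ⟨_, hfix i⟩, h1, fun p hp => ?_, fun i b hb => ?_⟩
  · apply Subtype.ext
    show incl _ = 0
    rw [algHom_lift]
    refine Eq.trans ?_ (h2 p hp)
    congr 2
    funext i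
    rcases i with i | i <;> simp [incl]
  · obtain ⟨c1, c2⟩ := h3 i (b : RelQuot S w) (Finset.mem_image_of_mem (Subtype.val : fixedRel α hS w → RelQuot S w) hb)
    exact ⟨Subtype.ext c1.eq, Subtype.ext c2.eq⟩

variable [TopologicalSpace.SeparableSpace B]

/-- A pair within `r` of the fixed dimension drop relations and of centrality. -/
def ApproxRel (S : Set B) (e : ℕ → G) (n : ℕ) (r : ℝ) (a b : B) : Prop :=
  (‖a‖ ≤ 2 ∧ ‖b‖ ≤ 2) ∧ SmallAt S (a * a) n r ∧
    SmallAt S (star b * b - (1 - star a * a - a * star a)) n r ∧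
    SmallAt S (star a * a * b - b) n r ∧
    (∀ i : Fin (n + 1), SmallAt S (α (e i) a - a) n r ∧ SmallAt S (α (e i) b - b) n r) ∧
    ∀ l : Fin (n + 1), ‖a * TopologicalSpace.denseSeq B l - TopologicalSpace.denseSeq B l * a‖ ≤ r ∧
      ‖b * TopologicalSpace.denseSeq B l - TopologicalSpace.denseSeq B l * b‖ ≤ r

theorem annSeq_of_mk_eq {f g : centralSeq (w : Filter ℕ) B}
    (hfg : Ideal.Quotient.mk (annIdeal S w) f = Ideal.Quotient.mk (annIdeal S w) g) :
    AnnSeq S w ((f : ℕ →ᵇ B) - (g : ℕ →ᵇ B)) := by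
  rw [Ideal.Quotient.mk_eq_mk_iff_sub_mem, mem_annIdeal] at hfg
  exact hfg

theorem exists_approxRel (e : ℕ → G) (n : ℕ) {r : ℝ} (hr : 0 < r)
    {y s : RelQuot S w}
    (hfix : ∀ i : Fin (n + 1), relAct α hS w (e i) y = y ∧ relAct α hS w (e i) s = s)
    (hrel : DropRelations y s) : ∃ a b : B, ApproxRel α S e n r a b := by
  obtain ⟨hy1, hs1⟩ := norm_le_one_of_dropRelations hrel
  obtain ⟨Y, rfl, hY⟩ := Submodule.Quotient.norm_mk_lt y zero_lt_one
  obtain ⟨T, rfl, hT⟩ := Submodule.Quotient.norm_mk_lt s zero_lt_one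
  obtain ⟨r1, r2, r3⟩ := hrel
  have small : ∀ {u : ℕ → B}, Tendsto u (w : Filter ℕ) (𝓝 0) →
      ∀ᶠ k in (w : Filter ℕ), ‖u k‖ ≤ r := by
    intro u hu
    filter_upwards [Metric.tendsto_nhds.1 hu r hr] with k hk
    rw [dist_zero_right] at hk
    exact hk.le
  have hYn : ∀ k, ‖(Y : ℕ →ᵇ B) k‖ ≤ 2 := fun k =>
    ((Y : ℕ →ᵇ B).norm_coe_le_norm k).trans (hY.le.trans (by linarith))
  have hTn : ∀ k, ‖(T : ℕ →ᵇ B) k‖ ≤ 2 := fun k =>
    ((T : ℕ →ᵇ B).norm_coe_le_norm k).trans (hT.le.trans (by linarith))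
  have n1 := annSeq_of_mk_eq w (f := Y * Y) (g := 0) (r1.trans (map_zero _).symm)
  have n2 := annSeq_of_mk_eq w (f := star T * T) (g := 1 - star Y * Y - Y * star Y) r2
  have n3 := annSeq_of_mk_eq w (f := star Y * Y * T) (g := T) r3
  have n4 : ∀ i : Fin (n + 1),
      AnnSeq S w ((centralAct α w (e i) Y : ℕ →ᵇ B) - (Y : ℕ →ᵇ B)) ∧
      AnnSeq S w ((centralAct α w (e i) T : ℕ →ᵇ B) - (T : ℕ →ᵇ B)) := fun i =>
    ⟨annSeq_of_mk_eq w (f := centralAct α w (e i) Y) (g := Y) (hfix i).1,
      annSeq_of_mk_eq w (f := centralAct α w (e i) T) (g := T) (hfix i).2⟩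
  obtain ⟨k, hk1, hk2, hk3, hk4, hk5⟩ := ((eventually_small S w n1 n hr).and
    ((eventually_small S w n2 n hr).and ((eventually_small S w n3 n hr).and
    ((eventually_all.2 fun i : Fin (n + 1) =>
      (eventually_small S w (n4 i).1 n hr).and (eventually_small S w (n4 i).2 n hr)).and
    (eventually_all.2 fun l : Fin (n + 1) => (small (Y.2 (TopologicalSpace.denseSeq B l))).and
      (small (T.2 (TopologicalSpace.denseSeq B l)))))))).exists
  refine ⟨(Y : ℕ →ᵇ B) k, (T : ℕ →ᵇ B) k, ⟨hYn k, hTn k⟩, ?_, hk2, hk3, hk4, hk5⟩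
  simpa using hk1

theorem exists_of_approxRel (hw : (w : Filter ℕ) ≤ cofinite)
    {e : ℕ → G} (he : Function.Surjective e) {a b : ℕ → B}
    (h : ∀ n, ApproxRel α S e n (1 / ((n : ℝ) + 1)) (a n) (b n)) :
    ∃ y s : RelQuot S w,
      (∀ g, relAct α hS w g y = y ∧ relAct α hS w g s = s) ∧ DropRelations y s := by
  have hlim : Tendsto (fun n : ℕ => 1 / ((n : ℝ) + 1)) (w : Filter ℕ) (𝓝 0) :=
    tendsto_one_div_add_atTop_nhds_zero_nat.mono_left (hw.trans_eq Nat.cofinite_eq_atTop)
  have hev : ∀ m, ∀ᶠ n in (w : Filter ℕ), m ≤ n := fun m =>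
    (hw.trans_eq Nat.cofinite_eq_atTop) (eventually_ge_atTop m)
  let Y₀ := BoundedContinuousFunction.ofNormedAddCommGroupDiscrete a 2 fun n => (h n).1.1
  let T₀ := BoundedContinuousFunction.ofNormedAddCommGroupDiscrete b 2 fun n => (h n).1.2
  let Y : centralSeq (w : Filter ℕ) B := ⟨Y₀, mem_centralSeq_of_dense fun l =>
    squeeze_zero_norm' ((hev l).mono fun n hn => ((h n).2.2.2.2.2 ⟨l, by omega⟩).1) hlim⟩
  let T : centralSeq (w : Filter ℕ) B := ⟨T₀, mem_centralSeq_of_dense fun l =>
    squeeze_zero_norm' ((hev l).mono fun n hn => ((h n).2.2.2.2.2 ⟨l, by omega⟩).2) hlim⟩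
  have eq_of : ∀ f g : centralSeq (w : Filter ℕ) B,
      (∀ n, SmallAt S ((f : ℕ →ᵇ B) n - (g : ℕ →ᵇ B) n) n (1 / ((n : ℝ) + 1))) →
      Ideal.Quotient.mk (annIdeal S w) f = Ideal.Quotient.mk (annIdeal S w) g := fun f g hfg => by
    rw [Ideal.Quotient.mk_eq_mk_iff_sub_mem, mem_annIdeal]
    exact annSeq_of_small S w hw hfg
  refine ⟨Ideal.Quotient.mk _ Y, Ideal.Quotient.mk _ T, fun g => ?_, ?_, ?_, ?_⟩
  · obtain ⟨i, rfl⟩ := he g
    have fix_of : ∀ f : centralSeq (w : Filter ℕ) B,
        (∀ n, i ≤ n → SmallAt S (α (e i) ((f : ℕ →ᵇ B) n) - (f : ℕ →ᵇ B) n) n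
          (1 / ((n : ℝ) + 1))) →
        Ideal.Quotient.mk (annIdeal S w) (centralAct α w (e i) f)
          = Ideal.Quotient.mk (annIdeal S w) f := fun f hf => by
      rw [Ideal.Quotient.mk_eq_mk_iff_sub_mem, mem_annIdeal]
      exact annSeq_of_small' S w hw ((hev i).mono hf)
    exact ⟨fix_of Y fun n hn => ((h n).2.2.2.2.1 ⟨i, by omega⟩).1,
      fix_of T fun n hn => ((h n).2.2.2.2.1 ⟨i, by omega⟩).2⟩
  · refine (eq_of (Y * Y) 0 fun n => ?_).trans (map_zero _)
    simpa [Y, Y₀] using (h n).2.1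
  · exact eq_of (star T * T) (1 - star Y * Y - Y * star Y) fun n => (h n).2.2.1
  · exact eq_of (star Y * Y * T) T fun n => (h n).2.2.2.1

/-- Relations with exactly fixed classes for every finite subset give relations fixed by all. -/
theorem exists_fixed_drop [Countable G] (hw : (w : Filter ℕ) ≤ cofinite)
    (h : ∀ T : Finset G, ∃ y s : RelQuot S w,
      (∀ g ∈ T, relAct α hS w g y = y ∧ relAct α hS w g s = s) ∧ DropRelations y s) :
    ∃ y s : RelQuot S w,
      (∀ g, relAct α hS w g y = y ∧ relAct α hS w g s = s) ∧ DropRelations y s := by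
  classical
  obtain ⟨e, he⟩ := exists_surjective_nat G
  have key : ∀ n : ℕ, ∃ a b : B, ApproxRel α S e n (1 / ((n : ℝ) + 1)) a b := fun n => by
    obtain ⟨y, s, hfix, hrel⟩ := h (Finset.univ.image fun i : Fin (n + 1) => e i)
    exact exists_approxRel α hS w e n (by positivity)
      (fun i => hfix _ (Finset.mem_image.2 ⟨i, Finset.mem_univ _, rfl⟩)) hrel
  choose a b hab using key
  exact exists_of_approxRel α hS w hw he hab

end Vale.Agent.P095.Rel
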