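import Vale.Agent.P101.Quotient

/-!
P095: every closed star-stable two-sided ideal has lifts of almost minimal norm.
-/

namespace Vale.Agent.P095.Rel

open Vale.Agent.P101

universe u

variable {G : Type u} [CStarAlgebra G] {I : Ideal G} [I.IsTwoSided]

/-- Congruent self-adjoint elements have congruent continuous functional calculus. -/
theorem cfc_sub_cfc_mem (hI : IsClosed (I : Set G)) {a b : G} (ha : IsSelfAdjoint a)
    (hb : IsSelfAdjoint b) (hab : a - b ∈ I) {f : ℝ → ℝ} (hf : Continuous f) :
    cfc f a - cfc f b ∈ I := by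
  rcases subsingleton_or_nontrivial G with hG | hG
  · rw [Subsingleton.elim (cfc f a - cfc f b) 0]
    exact I.zero_mem
  have hp : ∀ q : Polynomial ℝ, Polynomial.aeval a q - Polynomial.aeval b q ∈ I := fun q => by
    rw [← Ideal.Quotient.mk_eq_mk_iff_sub_mem]
    have h : Ideal.Quotient.mkₐ ℝ I a = Ideal.Quotient.mkₐ ℝ I b :=
      (Ideal.Quotient.mk_eq_mk_iff_sub_mem a b).2 hab
    have h1 := Polynomial.aeval_algHom_apply (Ideal.Quotient.mkₐ ℝ I) a q
    have h2 := Polynomial.aeval_algHom_apply (Ideal.Quotient.mkₐ ℝ I) b q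
    rw [h] at h1
    exact h1.symm.trans h2
  refine hI.closure_subset (Metric.mem_closure_iff.2 fun ε hε => ?_)
  set R : ℝ := ‖a‖ + ‖b‖
  obtain ⟨q, hq⟩ := exists_polynomial_near_of_continuousOn (-R) R f hf.continuousOn (ε / 4)
    (by positivity)
  have hcl : ∀ d : G, IsSelfAdjoint d → ‖d‖ ≤ R → ‖cfc f d - Polynomial.aeval d q‖ ≤ ε / 4 := by
    intro d hd hdR
    rw [← cfc_polynomial q d hd, ← cfc_sub f q.eval d hf.continuousOn q.continuous.continuousOn]
    refine norm_cfc_le (by positivity) (fun x hx => ?_)
    have hxd : |x| ≤ R := le_trans (by simpa using spectrum.norm_le_norm_of_mem hx) hdR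
    rw [Real.norm_eq_abs, abs_sub_comm]
    exact (hq x ⟨(abs_le.1 hxd).1, (abs_le.1 hxd).2⟩).le
  refine ⟨_, hp q, ?_⟩
  rw [dist_eq_norm]
  have e : cfc f a - cfc f b - (Polynomial.aeval a q - Polynomial.aeval b q)
      = (cfc f a - Polynomial.aeval a q) - (cfc f b - Polynomial.aeval b q) := by abel
  rw [e]
  calc _ ≤ ε / 4 + ε / 4 :=
        (norm_sub_le _ _).trans (add_le_add (hcl a ha (by simp [R])) (hcl b hb (by simp [R])))
    _ < ε := by linarith

/-- A closed star-stable two-sided ideal is good. -/
theorem goodIdeal_of_closed (hI : IsClosed (I : Set G)) (hstar : ∀ f ∈ I, star f ∈ I) :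
    GoodIdeal I where
  twoSided := inferInstance
  closed := hI
  star_mem := hstar
  cstar f g hg ε hε := by
    rcases subsingleton_or_nontrivial G with hG | hG
    · exact ⟨f, by simp, by simp [Subsingleton.elim f 0]; positivity⟩
    set c : ℝ := ‖g‖ + ε with hc
    have hc0 : 0 < c := by positivity
    set h : ℝ → ℝ := fun t => Real.sqrt (c / max t c) with hh
    have hhc : Continuous h := by
      refine Real.continuous_sqrt.comp (continuous_const.div (by fun_prop) fun t => ?_)
      exact (lt_max_of_lt_right hc0).ne'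
    set a := star f * f with ha'
    have ha : IsSelfAdjoint a := IsSelfAdjoint.star_mul_self f
    set b : G := (2 : ℝ)⁻¹ • (g + star g) with hb'
    have hb : IsSelfAdjoint b :=
      IsSelfAdjoint.smul (IsSelfAdjoint.all _) (IsSelfAdjoint.add_star_self g)
    have hbn : ‖b‖ ≤ ‖g‖ := by
      rw [hb', norm_smul, Real.norm_of_nonneg (by norm_num)]
      calc (2 : ℝ)⁻¹ * ‖g + star g‖ ≤ (2 : ℝ)⁻¹ * (‖g‖ + ‖g‖) := by
            refine mul_le_mul_of_nonneg_left ((norm_add_le _ _).trans ?_) (by norm_num)
            rw [norm_star]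
        _ = ‖g‖ := by ring
    have hab : a - b ∈ I := by
      have h1 : a - g ∈ I := by
        rw [← neg_sub]; exact I.neg_mem hg
      have h2 : a - star g ∈ I := by
        simpa [ha.star_eq] using hstar _ h1
      have e : a - b = (2 : ℝ)⁻¹ • ((a - g) + (a - star g)) := by
        rw [hb']; module
      rw [e]
      exact Submodule.smul_of_tower_mem I _ (I.add_mem h1 h2)
    have hb1 : cfc h b = 1 := by
      rw [← cfc_one ℝ b]
      refine cfc_congr fun t ht => ?_
      have htc : t ≤ c := by
        have := (le_abs_self t).trans (le_trans (by simpa using spectrum.norm_le_norm_of_mem ht) hbn)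
        linarith
      simp [hh, max_eq_right htc, div_self hc0.ne']
    have hmem := cfc_sub_cfc_mem hI ha hb hab hhc
    rw [hb1] at hmem
    refine ⟨f * cfc h a, ?_, ?_⟩
    · have : f * cfc h a - f = f * (cfc h a - 1) := by rw [mul_sub, mul_one]
      rw [this]
      exact I.mul_mem_left _ hmem
    · have e : star (f * cfc h a) * (f * cfc h a) = cfc (fun t => h t * t * h t) a := by
        have hs : star (cfc h a) = cfc h a := (cfc_predicate (p := IsSelfAdjoint) h a).star_eq
        have hm : cfc (fun t => h t * t) a = cfc h a * a := by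
          rw [cfc_mul h (fun t => t) a hhc.continuousOn continuous_id.continuousOn, cfc_id' ℝ a ha]
        rw [star_mul, hs, cfc_mul (fun t => h t * t) h a (hhc.mul continuous_id).continuousOn
          hhc.continuousOn, hm]
        simp only [ha', mul_assoc]
      rw [← CStarRing.norm_star_mul_self, e]
      refine norm_cfc_le hc0.le fun t ht => ?_
      have ht0 : 0 ≤ t := by
        let _ := CStarAlgebra.spectralOrder G
        have := CStarAlgebra.spectralOrderedRing G
        exact spectrum_nonneg_of_nonneg (star_mul_self_nonneg f) ht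
      have hm : 0 < max t c := lt_max_of_lt_right hc0
      rw [Real.norm_eq_abs, mul_right_comm, hh, Real.mul_self_sqrt (by positivity),
        abs_of_nonneg (by positivity), div_mul_eq_mul_div, div_le_iff₀ hm]
      exact mul_le_mul_of_nonneg_left (le_max_left t c) hc0.le

end Vale.Agent.P095.Rel
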