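import Vale.Agent.P095.Rel.Unit
import Vale.Agent.P095.Induced
import Vale.Agent.P095.NoChar
import Vale.Agent.P095.PoolExists
import Vale.Agent.P101.Full
import Vale.Agent.P101.Drop

/-!
P095: every action of a countable group with locally finite image on a separable C*-algebra whose
central sequence algebra has no characters admits a unital map of `Z(2,3)` into the fixed algebra.
-/

namespace Vale.Agent.P095.Rel

open Filter Vale.Agent.P101
open scoped Topology BoundedContinuousFunction

/-- The case of a countable locally finite group. -/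
theorem exists_fixedHom_locallyFinite {A : Type} [NonUnitalCStarAlgebra A] [TopologicalSpace.SeparableSpace A]
    {w : Ultrafilter ℕ} (hw : (w : Filter ℕ) ≤ cofinite) {G : Type} [Group G] [Countable G]
    (hG : ∀ S : Finset G, Finite (Subgroup.closure (S : Set G)))
    (α : G →* (A ≃⋆ₐ[ℂ] A))
    (h : ∀ χ : centralSeq (w : Filter ℕ) (Unitization ℂ A) →⋆ₐ[ℂ] ℂ,
      (∀ f : centralSeq (w : Filter ℕ) (Unitization ℂ A),
        AnnNull (w : Filter ℕ) (f : ℕ →ᵇ Unitization ℂ A) → χ f = 0) → False) :
    ∃ φ : ZTwoThree → centralSeq (w : Filter ℕ) (Unitization ℂ A),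
      IsFixedHomModAnn (w : Filter ℕ) α φ := by
  let : CStarAlgebra (centralSeq (w : Filter ℕ) (Unitization ℂ A)) :=
    StarSubalgebra.cstarAlgebra _ (h_closed := isClosed_centralSeq w)
  set β := unitAct α
  set hS := unitAct_mem α
  have hF := isEmpty_character_relQuot w h
  have step : ∀ T : Finset G, ∃ y s : RelQuot (inrSet A) w,
      (∀ g ∈ T, relAct β hS w g y = y ∧ relAct β hS w g s = s) ∧ DropRelations y s := by
    intro T
    let H := Subgroup.closure (T : Set G)
    have : Finite H := hG T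
    let := Fintype.ofFinite H
    let hSH : ∀ g : H, ∀ s ∈ inrSet A, (β.comp H.subtype) g s ∈ inrSet A := fun g => hS g
    obtain ⟨n, ⟨P⟩⟩ := exists_pool (fun g : H => relAct (β.comp H.subtype) hSH w g)
      (relAct_mul _ hSH w) (hasCopies_relQuot (inrSet A) w hw) hF
    have hE := fixed_no_character (relAct_one _ hSH w) (relAct_mul _ hSH w) P
      (fixedRel (β.comp H.subtype) hSH w) (fun x => mem_fixedRel _ hSH w)
    have hC := hasCopies_fixedRel (β.comp H.subtype) hSH w hw
    obtain ⟨k, N, ⟨W⟩⟩ := noCharPin _ hE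
    obtain ⟨N', ⟨W'⟩⟩ := fullPin _ hC k N W
    obtain ⟨y, s, hys⟩ := dropPin _ (witnessCopies_of_hasCopies hC) N' W'
    refine ⟨y, s, fun g hg => ⟨y.2 ⟨g, Subgroup.subset_closure hg⟩,
      s.2 ⟨g, Subgroup.subset_closure hg⟩⟩, ?_⟩
    exact ⟨congrArg Subtype.val hys.1, congrArg Subtype.val hys.2.1, congrArg Subtype.val hys.2.2⟩
  obtain ⟨y, s, hfix, hrel⟩ := exists_fixed_drop β hS w hw step
  let E := fixedRel β hS w
  have hE : Nonempty (ZTwoThree →⋆ₐ[ℂ] E) :=
    DimDrop.exists_starAlgHom_iff.2 ⟨⟨y, fun g => (hfix g).1⟩, ⟨s, fun g => (hfix g).2⟩,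
      Subtype.ext hrel.1, Subtype.ext hrel.2.1, Subtype.ext hrel.2.2⟩
  exact exists_isFixedHomModAnn α (quotHom (annIdeal (inrSet A) w)) Ideal.Quotient.mk_surjective
    (quotHom_eq_zero_iff w) E hE fun g f hf a => tendsto_of_fixed α w (hf g) a

/-- The case of a countable group whose image in the automorphisms is locally finite. -/
theorem exists_fixedHom_locallyFinite_range {A : Type} [NonUnitalCStarAlgebra A]
    [TopologicalSpace.SeparableSpace A] {w : Ultrafilter ℕ} (hw : (w : Filter ℕ) ≤ cofinite)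
    {G : Type} [Group G] [Countable G] (α : G →* (A ≃⋆ₐ[ℂ] A))
    (hG : ∀ S : Finset G, (α '' (Subgroup.closure (S : Set G) : Set G)).Finite)
    (h : ∀ χ : centralSeq (w : Filter ℕ) (Unitization ℂ A) →⋆ₐ[ℂ] ℂ,
      (∀ f : centralSeq (w : Filter ℕ) (Unitization ℂ A),
        AnnNull (w : Filter ℕ) (f : ℕ →ᵇ Unitization ℂ A) → χ f = 0) → False) :
    ∃ φ : ZTwoThree → centralSeq (w : Filter ℕ) (Unitization ℂ A),
      IsFixedHomModAnn (w : Filter ℕ) α φ := by
  classical
  have : Countable α.range := (Set.countable_range α).to_subtype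
  obtain ⟨φ, hφ⟩ := exists_fixedHom_locallyFinite hw (G := α.range) (fun S => by
    choose pre hpre using fun x : α.range => x.2
    have hsub : Subgroup.closure (S : Set α.range) ≤
        (Subgroup.closure ((S.image pre : Finset G) : Set G)).map α.rangeRestrict :=
      (Subgroup.closure_le _).2 fun x hx => ⟨pre x,
        Subgroup.subset_closure (Finset.mem_image_of_mem pre hx), Subtype.ext (hpre x)⟩
    have hfin : (((Subgroup.closure ((S.image pre : Finset G) : Set G)).map α.rangeRestrict :
        Subgroup α.range) : Set α.range).Finite := by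
      refine Set.Finite.of_finite_image ((hG (S.image pre)).subset ?_) Subtype.val_injective.injOn
      rintro _ ⟨_, ⟨g, hg, rfl⟩, rfl⟩
      exact ⟨g, hg, rfl⟩
    exact (hfin.subset hsub).to_subtype) α.range.subtype h
  exact ⟨φ, ⟨hφ.one, hφ.add, hφ.mul, hφ.smul, hφ.star_map,
    fun g f a => hφ.fixed ⟨α g, ⟨g, rfl⟩⟩ f a⟩⟩

end Vale.Agent.P095.Rel
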