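import Vale.Agent.P095.LocallyFinite
import Vale.Agent.P095.Rel.Ideal

/-!
P095: the central sequence algebra relative to a subset of a unital C*-algebra (central sequences
modulo those annihilating the subset), with commuting copies. For the unitization of an algebra and
the algebra inside it this is Kirchberg's central sequence algebra.
-/

namespace Vale.Agent.P095.Rel

open Filter Vale.Agent.P101
open scoped Topology BoundedContinuousFunction

universe u

variable {B : Type u} [CStarAlgebra B] (S : Set B) (w : Ultrafilter ℕ)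

noncomputable local instance : CStarAlgebra (centralSeq (w : Filter ℕ) B) :=
  StarSubalgebra.cstarAlgebra _ (h_closed := isClosed_centralSeq w)

/-- A bounded sequence asymptotically annihilating the subset, together with its adjoint. -/
def AnnSeq (f : ℕ →ᵇ B) : Prop :=
  ∀ s ∈ S, Tendsto (fun n => f n * s) (w : Filter ℕ) (𝓝 0) ∧
    Tendsto (fun n => star (f n) * s) (w : Filter ℕ) (𝓝 0)

theorem tendsto_mul_bdd {u v : ℕ → B} {C : ℝ} (hu : Tendsto u (w : Filter ℕ) (𝓝 0))
    (hv : ∀ n, ‖v n‖ ≤ C) :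
    Tendsto (fun n => u n * v n) (w : Filter ℕ) (𝓝 0) ∧
      Tendsto (fun n => v n * u n) (w : Filter ℕ) (𝓝 0) := by
  have h0 : Tendsto (fun n => ‖u n‖ * C) (w : Filter ℕ) (𝓝 0) := by
    simpa using (tendsto_zero_iff_norm_tendsto_zero.1 hu).mul_const C
  exact ⟨squeeze_zero_norm (fun n =>
      (norm_mul_le _ _).trans (mul_le_mul_of_nonneg_left (hv n) (norm_nonneg _))) h0,
    squeeze_zero_norm (fun n => ((norm_mul_le _ _).trans
      (mul_le_mul_of_nonneg_right (hv n) (norm_nonneg _))).trans_eq (mul_comm _ _)) h0⟩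

/-- The ideal of central sequences annihilating the subset. -/
def annIdeal : Ideal (centralSeq (w : Filter ℕ) B) where
  carrier := {f | AnnSeq S w (f : ℕ →ᵇ B)}
  add_mem' {f g} hf hg s hs := by
    refine ⟨?_, ?_⟩
    · simpa [add_mul] using (hf s hs).1.add (hg s hs).1
    · simpa [add_mul] using (hf s hs).2.add (hg s hs).2
  zero_mem' s _ := by simp
  smul_mem' c f hf s hs := by
    have hb : ∀ n, ‖(c : ℕ →ᵇ B) n‖ ≤ ‖(c : ℕ →ᵇ B)‖ := (c : ℕ →ᵇ B).norm_coe_le_norm
    have hb' : ∀ n, ‖star ((c : ℕ →ᵇ B) n)‖ ≤ ‖(c : ℕ →ᵇ B)‖ := fun n =>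
      (norm_star _).trans_le (hb n)
    refine ⟨((tendsto_mul_bdd w (hf s hs).1 hb).2).congr fun n => ?_, ?_⟩
    · simp [mul_assoc]
    · have h1 := (tendsto_mul_bdd w ((star c).2 s)
        (fun n => (norm_star _).trans_le ((f : ℕ →ᵇ B).norm_coe_le_norm n))).2
      have h2 := (tendsto_mul_bdd w (hf s hs).2 hb').1
      have h := h1.add h2
      simp only [add_zero] at h
      refine h.congr fun n => ?_
      simp [mul_sub, mul_assoc]

theorem mem_annIdeal {f : centralSeq (w : Filter ℕ) B} :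
    f ∈ annIdeal S w ↔ AnnSeq S w (f : ℕ →ᵇ B) := Iff.rfl

theorem star_mem_annIdeal {f : centralSeq (w : Filter ℕ) B} (hf : f ∈ annIdeal S w) :
    star f ∈ annIdeal S w := fun s hs => ⟨(hf s hs).2, by simpa using (hf s hs).1⟩

instance : (annIdeal S w).IsTwoSided where
  mul_mem_of_left {f} g hf := by
    have h := (annIdeal S w).mul_mem_left (star g) (star_mem_annIdeal S w hf)
    simpa using star_mem_annIdeal S w h

theorem isClosed_annIdeal :
    IsClosed (annIdeal S w : Set (centralSeq (w : Filter ℕ) B)) := by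
  refine isClosed_of_closure_subset fun g hg => ?_
  intro s hs
  have key : ∀ ε > (0 : ℝ), ∀ᶠ n in (w : Filter ℕ),
      ‖(g : ℕ →ᵇ B) n * s‖ < ε ∧ ‖star ((g : ℕ →ᵇ B) n) * s‖ < ε := by
    intro ε hε
    obtain ⟨f, hf, hfg⟩ := Metric.mem_closure_iff.1 hg (ε / (2 * (‖s‖ + 1))) (by positivity)
    rw [Subtype.dist_eq] at hfg
    filter_upwards [Metric.tendsto_nhds.1 (hf s hs).1 (ε / 2) (by positivity),
      Metric.tendsto_nhds.1 (hf s hs).2 (ε / 2) (by positivity)] with n h1 h2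
    rw [dist_zero_right] at h1 h2
    have h3 := BoundedContinuousFunction.dist_coe_le_dist
      (f := (g : ℕ →ᵇ B)) (g := (f : ℕ →ᵇ B)) n
    rw [dist_eq_norm] at h3
    have h4 : ε / (2 * (‖s‖ + 1)) * ‖s‖ ≤ ε / 2 := by
      rw [div_mul_eq_mul_div, div_le_div_iff₀ (by positivity) (by norm_num)]
      nlinarith [norm_nonneg s]
    have h5 := mul_le_mul_of_nonneg_right (h3.trans hfg.le) (norm_nonneg s)
    constructor
    · calc _ = ‖((g : ℕ →ᵇ B) n - (f : ℕ →ᵇ B) n) * s + (f : ℕ →ᵇ B) n * s‖ := by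
            rw [← add_mul, sub_add_cancel]
        _ ≤ _ := (norm_add_le _ _).trans (add_le_add (norm_mul_le _ _) le_rfl)
        _ < ε := by linarith
    · calc _ = ‖star ((g : ℕ →ᵇ B) n - (f : ℕ →ᵇ B) n) * s + star ((f : ℕ →ᵇ B) n) * s‖ := by
            rw [← add_mul, ← star_add, sub_add_cancel]
        _ ≤ _ := (norm_add_le _ _).trans (add_le_add (norm_mul_le _ _) le_rfl)
        _ < ε := by rw [norm_star]; linarith
  constructor <;> rw [Metric.tendsto_nhds] <;> intro ε hε <;>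
    filter_upwards [key ε hε] with n hn <;> rw [dist_zero_right]
  exacts [hn.1, hn.2]

instance : IsClosed (annIdeal S w : Set (centralSeq (w : Filter ℕ) B)) := isClosed_annIdeal S w

instance : GoodIdeal (annIdeal S w) :=
  goodIdeal_of_closed (isClosed_annIdeal S w) fun _ hf => star_mem_annIdeal S w hf

/-- Central sequences modulo those annihilating the subset. -/
abbrev RelQuot : Type u := centralSeq (w : Filter ℕ) B ⧸ annIdeal S w

variable [TopologicalSpace.SeparableSpace B]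

theorem exists_denseIn : ∃ d : ℕ → B, (∀ l, d l ∈ insert 0 S) ∧ S ⊆ closure (Set.range d) := by
  obtain ⟨c, hcS, hc, hSc⟩ :=
    (TopologicalSpace.IsSeparable.of_separableSpace S).exists_countable_dense_subset
  obtain ⟨d, hd⟩ := (hc.insert (0 : B)).exists_eq_range (Set.insert_nonempty _ _)
  refine ⟨d, fun l => ?_, hSc.trans (closure_mono ?_)⟩
  · exact Set.insert_subset_insert hcS (hd ▸ Set.mem_range_self l)
  · exact hd ▸ Set.subset_insert _ _

/-- A sequence dense in the subset. -/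
noncomputable def relDense : ℕ → B := (exists_denseIn S).choose

/-- Smallness against the first members of the dense sequence. -/
def SmallAt (x : B) (n : ℕ) (r : ℝ) : Prop :=
  ∀ l : Fin (n + 1), ‖x * relDense S l‖ ≤ r ∧ ‖star x * relDense S l‖ ≤ r

theorem eventually_small {f : ℕ →ᵇ B} (hf : AnnSeq S w f) (n : ℕ) {r : ℝ} (hr : 0 < r) :
    ∀ᶠ k in (w : Filter ℕ), SmallAt S (f k) n r := by
  refine eventually_all.2 fun l => ?_
  rcases (exists_denseIn S).choose_spec.1 l with h | h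
  · exact Filter.Eventually.of_forall fun k => by simp [relDense, h, hr.le]
  · filter_upwards [Metric.tendsto_nhds.1 (hf _ h).1 r hr,
      Metric.tendsto_nhds.1 (hf _ h).2 r hr] with k h1 h2
    rw [dist_zero_right] at h1 h2
    exact ⟨h1.le, h2.le⟩

theorem annSeq_of_small' (hw : (w : Filter ℕ) ≤ cofinite) {f : ℕ →ᵇ B}
    (h : ∀ᶠ n in (w : Filter ℕ), SmallAt S (f n) n (1 / ((n : ℝ) + 1))) : AnnSeq S w f := by
  intro s hs
  have hlim : Tendsto (fun n : ℕ => 1 / ((n : ℝ) + 1)) (w : Filter ℕ) (𝓝 0) :=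
    tendsto_one_div_add_atTop_nhds_zero_nat.mono_left (hw.trans_eq Nat.cofinite_eq_atTop)
  have key : ∀ ε > (0 : ℝ), ∀ᶠ n in (w : Filter ℕ), ‖f n * s‖ < ε ∧ ‖star (f n) * s‖ < ε := by
    intro ε hε
    obtain ⟨_, ⟨l, rfl⟩, hl⟩ := Metric.mem_closure_iff.1 ((exists_denseIn S).choose_spec.2 hs)
      (ε / (2 * (‖f‖ + 1))) (by positivity)
    change dist s (relDense S l) < _ at hl
    rw [dist_eq_norm] at hl
    have hn : ∀ᶠ n in (w : Filter ℕ), l ≤ n :=
      (hw.trans_eq Nat.cofinite_eq_atTop) (eventually_ge_atTop l)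
    filter_upwards [hn, h, hlim.eventually (eventually_lt_nhds (half_pos hε))] with n h1 h0 h2
    have h4 : ‖f‖ * (ε / (2 * (‖f‖ + 1))) ≤ ε / 2 := by
      rw [mul_div_assoc', div_le_div_iff₀ (by positivity) (by norm_num)]
      nlinarith [norm_nonneg f]
    have bound : ∀ y : B, ‖y‖ ≤ ‖f‖ → ‖y * relDense S l‖ ≤ 1 / ((n : ℝ) + 1) → ‖y * s‖ < ε := by
      intro y hy hyl
      calc ‖y * s‖ = ‖y * relDense S l + y * (s - relDense S l)‖ := by
            rw [mul_sub, add_sub_cancel]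
        _ ≤ 1 / ((n : ℝ) + 1) + ‖f‖ * (ε / (2 * (‖f‖ + 1))) :=
            (norm_add_le _ _).trans (add_le_add hyl ((norm_mul_le _ _).trans
              (mul_le_mul hy hl.le (norm_nonneg _) (norm_nonneg _))))
        _ < ε := by linarith
    exact ⟨bound _ (f.norm_coe_le_norm n) (h0 ⟨l, by omega⟩).1,
      bound _ ((norm_star _).trans_le (f.norm_coe_le_norm n)) (h0 ⟨l, by omega⟩).2⟩
  constructor <;> rw [Metric.tendsto_nhds] <;> intro ε hε <;>
    filter_upwards [key ε hε] with n hn <;> rw [dist_zero_right]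
  exacts [hn.1, hn.2]

theorem annSeq_of_small (hw : (w : Filter ℕ) ≤ cofinite) {f : ℕ →ᵇ B}
    (h : ∀ n, SmallAt S (f n) n (1 / ((n : ℝ) + 1))) : AnnSeq S w f :=
  annSeq_of_small' S w hw (Filter.Eventually.of_forall h)

theorem exists_reindex (hw : (w : Filter ℕ) ≤ cofinite)
    {ι κ ρ : Type*} [Finite ι] [Finite κ] [Finite ρ]
    (x : ι → centralSeq (w : Filter ℕ) B) (t : κ → ℕ →ᵇ B) (r : ρ → ℕ →ᵇ B)
    (hr : ∀ j, AnnSeq S w (r j)) :
    ∃ m : ℕ → ℕ, (∀ i, reindex m (x i : ℕ →ᵇ B) ∈ centralSeq (w : Filter ℕ) B) ∧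
      (∀ j, AnnSeq S w (reindex m (r j))) ∧
      ∀ i j, IsNull (w : Filter ℕ)
          (reindex m (x i : ℕ →ᵇ B) * t j - t j * reindex m (x i : ℕ →ᵇ B)) ∧
        IsNull (w : Filter ℕ)
          (reindex m (x i : ℕ →ᵇ B) * star (t j) - star (t j) * reindex m (x i : ℕ →ᵇ B)) := by
  let d := TopologicalSpace.denseSeq B
  have key : ∀ n : ℕ, ∃ k : ℕ,
      (∀ j, SmallAt S (r j k) n (1 / (n + 1))) ∧
      (∀ i, ∀ l : Fin (n + 1), ‖(x i : ℕ →ᵇ B) k * d l - d l * (x i : ℕ →ᵇ B) k‖ ≤ 1 / (n + 1)) ∧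
      (∀ i, ∀ j, ‖(x i : ℕ →ᵇ B) k * t j n - t j n * (x i : ℕ →ᵇ B) k‖ ≤ 1 / (n + 1)) ∧
      (∀ i, ∀ j, ‖(x i : ℕ →ᵇ B) k * star (t j n) - star (t j n) * (x i : ℕ →ᵇ B) k‖
        ≤ 1 / (n + 1)) := by
    intro n
    have small : ∀ {u : ℕ → B}, Tendsto u (w : Filter ℕ) (𝓝 0) →
        ∀ᶠ k in (w : Filter ℕ), ‖u k‖ ≤ 1 / ((n : ℝ) + 1) := by
      intro u hu
      filter_upwards [Metric.tendsto_nhds.1 hu (1 / ((n : ℝ) + 1)) (by positivity)] with k hk
      rw [dist_zero_right] at hk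
      exact hk.le
    exact ((eventually_all.2 fun j => eventually_small S w (hr j) n (by positivity)).and
      ((eventually_all.2 fun i => eventually_all.2 fun l : Fin (n + 1) => small ((x i).2 (d l))).and
      ((eventually_all.2 fun i => eventually_all.2 fun j => small ((x i).2 (t j n))).and
      (eventually_all.2 fun i => eventually_all.2 fun j => small ((x i).2 (star (t j n))))))).exists
  choose m hmr hmd hms hmt using key
  have hlim : Tendsto (fun n : ℕ => 1 / ((n : ℝ) + 1)) (w : Filter ℕ) (𝓝 0) :=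
    tendsto_one_div_add_atTop_nhds_zero_nat.mono_left (hw.trans_eq Nat.cofinite_eq_atTop)
  have hev : ∀ l, ∀ᶠ n in (w : Filter ℕ), l ≤ n := fun l =>
    (hw.trans_eq Nat.cofinite_eq_atTop) (eventually_ge_atTop l)
  refine ⟨m, fun i => mem_centralSeq_of_dense fun l => squeeze_zero_norm'
      ((hev l).mono fun n hn => hmd n i ⟨l, by omega⟩) hlim,
    fun j => annSeq_of_small S w hw fun n => hmr n j,
    fun i j => ⟨squeeze_zero_norm (fun n => hms n i j) hlim,
      squeeze_zero_norm (fun n => hmt n i j) hlim⟩⟩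

/-- Reindexed copies of central sequences satisfying given relations modulo the ideal. -/
theorem exists_copies (hw : (w : Filter ℕ) ≤ cofinite) {n : ℕ}
    (x : Fin n → centralSeq (w : Filter ℕ) B)
    (R : Finset (FreeAlgebra ℂ (Fin n ⊕ Fin n)))
    (hR : ∀ p ∈ R, FreeAlgebra.lift ℂ (Sum.elim (fun i => Ideal.Quotient.mk (annIdeal S w) (x i))
      fun i => star (Ideal.Quotient.mk (annIdeal S w) (x i))) p = 0)
    (T : Finset (RelQuot S w)) :
    ∃ (m : ℕ → ℕ) (hm : ∀ i, reindex m (x i : ℕ →ᵇ B) ∈ centralSeq (w : Filter ℕ) B),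
      (∀ i, ‖Ideal.Quotient.mk (annIdeal S w) ⟨_, hm i⟩‖ ≤ ∑ j, ‖x j‖) ∧
      (∀ p ∈ R, FreeAlgebra.lift ℂ
        (Sum.elim (fun i => Ideal.Quotient.mk (annIdeal S w) ⟨_, hm i⟩)
          fun i => star (Ideal.Quotient.mk (annIdeal S w) ⟨_, hm i⟩)) p = 0) ∧
      ∀ i, ∀ b ∈ T, Commute (Ideal.Quotient.mk (annIdeal S w) ⟨_, hm i⟩) b ∧
        Commute (Ideal.Quotient.mk (annIdeal S w) ⟨_, hm i⟩) (star b) := by
  choose lift hlift using (Ideal.Quotient.mk_surjective :
    Function.Surjective (Ideal.Quotient.mk (annIdeal S w) :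
      centralSeq (w : Filter ℕ) B → RelQuot S w))
  let q := (quotHom (annIdeal S w)).toAlgHom
  let xs : Fin n ⊕ Fin n → centralSeq (w : Filter ℕ) B := Sum.elim x fun i => star (x i)
  let r : R → centralSeq (w : Filter ℕ) B := fun p => FreeAlgebra.lift ℂ xs (p : FreeAlgebra ℂ _)
  have hr : ∀ p, AnnSeq S w (r p : ℕ →ᵇ B) := fun p => by
    rw [← mem_annIdeal, ← Ideal.Quotient.eq_zero_iff_mem]
    show q (r p) = 0
    rw [algHom_lift]
    refine Eq.trans ?_ (hR p p.2)
    congr 2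
    funext i
    rcases i with i | i <;> simp [q, xs, quotHom_apply, ← star_mk]
  obtain ⟨m, hm, hmR, hmS⟩ :=
    exists_reindex S w hw x (fun b : T => (lift b : ℕ →ᵇ B)) (fun p => (r p : ℕ →ᵇ B)) hr
  refine ⟨m, hm, fun i => ?_, fun p hp => ?_, fun i b hb => ?_⟩
  · refine (Submodule.Quotient.norm_mk_le _ _).trans (le_trans ?_
      (Finset.single_le_sum (fun j _ => norm_nonneg (x j)) (Finset.mem_univ i)))
    exact (BoundedContinuousFunction.norm_le (norm_nonneg _)).2
      fun k => (x i : ℕ →ᵇ B).norm_coe_le_norm (m k)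
  · let xs' : Fin n ⊕ Fin n → centralSeq (w : Filter ℕ) B :=
      Sum.elim (fun i => ⟨_, hm i⟩) fun i => star (⟨_, hm i⟩ : centralSeq (w : Filter ℕ) B)
    have h1 : q (FreeAlgebra.lift ℂ xs' p) = 0 := by
      show Ideal.Quotient.mk (annIdeal S w) _ = 0
      rw [Ideal.Quotient.eq_zero_iff_mem, mem_annIdeal]
      have h2 : (centralSeq (w : Filter ℕ) B).subtype.toAlgHom (FreeAlgebra.lift ℂ xs' p)
          = reindexAlg m ((centralSeq (w : Filter ℕ) B).subtype.toAlgHom (r ⟨p, hp⟩)) := by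
        simp only [r, algHom_lift]
        congr 2
        funext i
        rcases i with i | i <;> rfl
      show AnnSeq S w ((centralSeq (w : Filter ℕ) B).subtype.toAlgHom (FreeAlgebra.lift ℂ xs' p))
      rw [h2]
      exact hmR ⟨p, hp⟩
    rw [algHom_lift] at h1
    refine Eq.trans ?_ h1
    congr 2
    funext i
    rcases i with i | i <;> simp [q, xs', quotHom_apply, ← star_mk]
  · have null : ∀ {f : centralSeq (w : Filter ℕ) B}, IsNull (w : Filter ℕ) (f : ℕ →ᵇ B) →
        AnnSeq S w (f : ℕ →ᵇ B) := fun {f} hf s _ => by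
      refine ⟨(tendsto_mul_bdd w hf (C := ‖s‖) (v := fun _ => s) fun _ => le_rfl).1, ?_⟩
      have hf' : Tendsto (fun k => star ((f : ℕ →ᵇ B) k)) (w : Filter ℕ) (𝓝 0) := by
        simpa using (hf : Tendsto _ _ _).star
      exact (tendsto_mul_bdd w hf' (C := ‖s‖) (v := fun _ => s) fun _ => le_rfl).1
    rw [← hlift b, star_mk]
    constructor <;> rw [commute_iff_eq, ← map_mul, ← map_mul,
      Ideal.Quotient.mk_eq_mk_iff_sub_mem, mem_annIdeal] <;> refine null ?_
    · exact (hmS i ⟨b, hb⟩).1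
    · exact (hmS i ⟨b, hb⟩).2

theorem hasCopies_relQuot (hw : (w : Filter ℕ) ≤ cofinite) : HasCopies (RelQuot S w) := by
  intro n a R hR
  choose x hx using fun i => Ideal.Quotient.mk_surjective (I := annIdeal S w) (a i)
  refine ⟨∑ i, ‖x i‖, fun T => ?_⟩
  obtain ⟨m, hm, h1, h2, h3⟩ := exists_copies S w hw x R (by simpa [hx] using hR) T
  exact ⟨fun i => Ideal.Quotient.mk (annIdeal S w) ⟨_, hm i⟩, h1, h2, h3⟩

end Vale.Agent.P095.Rel
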